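import Mathlib

/- The adjoint of a compact operator is compact. -/

namespace Vale.Agent.P212

theorem cpt_adjoint {E F : Type} [NormedAddCommGroup E] [InnerProductSpace ℂ E] [CompleteSpace E]
    [NormedAddCommGroup F] [InnerProductSpace ℂ F] [CompleteSpace F] {T : E →L[ℂ] F}
    (h : IsCompactOperator T) : IsCompactOperator (ContinuousLinearMap.adjoint T) := by
  set S := ContinuousLinearMap.adjoint T with hS
  have h1 : IsCompactOperator (T.comp S) := h.comp_clm S
  have h2 : TotallyBounded ((T.comp S) '' Metric.closedBall 0 1) :=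
    (IsCompactOperator.isCompact_closure_image_closedBall (f := (T.comp S).toLinearMap) h1
      1).totallyBounded.subset subset_closure
  have h3 : TotallyBounded (S '' Metric.closedBall 0 1) := by
    rw [Metric.totallyBounded_iff]
    intro ε hε
    obtain ⟨t, hts, ht, hc⟩ := Metric.finite_approx_of_totallyBounded h2 (ε ^ 2 / 2) (by positivity)
    have : ∀ y : t, ∃ x ∈ Metric.closedBall (0 : F) 1, T.comp S x = y := fun y => hts y.2
    choose g hg hg' using this
    haveI := ht.to_subtype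
    refine ⟨Set.range fun y => S (g y), Set.finite_range _, ?_⟩
    rintro _ ⟨x, hx, rfl⟩
    obtain ⟨y, hy, hxy⟩ := Set.mem_iUnion₂.1 (hc ⟨x, hx, rfl⟩)
    refine Set.mem_iUnion₂.2 ⟨S (g ⟨y, hy⟩), ⟨_, rfl⟩, ?_⟩
    rw [Metric.mem_ball, dist_eq_norm, ← map_sub]
    rw [Metric.mem_ball, dist_eq_norm, show y = T.comp S (g ⟨y, hy⟩) from (hg' ⟨y, hy⟩).symm,
      ← map_sub] at hxy
    have e1 : ‖x - g ⟨y, hy⟩‖ ≤ 2 := by
      have a := mem_closedBall_zero_iff.1 hx
      have b := mem_closedBall_zero_iff.1 (hg ⟨y, hy⟩)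
      linarith [norm_sub_le x (g ⟨y, hy⟩)]
    generalize x - g ⟨y, hy⟩ = z at *
    have e2 : ‖S z‖ ^ 2 ≤ ‖z‖ * ‖T.comp S z‖ := by
      have : (inner ℂ (S z) (S z) : ℂ) = inner ℂ z (T (S z)) := by
        rw [hS, ContinuousLinearMap.adjoint_inner_left]
      calc ‖S z‖ ^ 2 = ‖(inner ℂ (S z) (S z) : ℂ)‖ := by
            rw [inner_self_eq_norm_sq_to_K]; simp
        _ ≤ _ := by rw [this]; exact norm_inner_le_norm _ _
    refine lt_of_pow_lt_pow_left₀ 2 hε.le ?_
    nlinarith [norm_nonneg (T.comp S z), norm_nonneg z]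
  exact (isCompactOperator_iff_exists_mem_nhds_isCompact_closure_image _).2
    ⟨_, Metric.closedBall_mem_nhds 0 one_pos, h3.closure.isCompact_of_isClosed isClosed_closure⟩

theorem cpt_star {H : Type} [NormedAddCommGroup H] [InnerProductSpace ℂ H] [CompleteSpace H]
    {T : H →L[ℂ] H} (h : IsCompactOperator T) : IsCompactOperator (star T : H →L[ℂ] H) :=
  cpt_adjoint h

end Vale.Agent.P212
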