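import Vale.Agent.P212.Defs0

namespace Vale.Agent.P212

open scoped ZeroAtInfty Classical

section Roe

variable {X H : Type} [MetricSpace X] [NormedAddCommGroup H] [InnerProductSpace ℂ H]
  [CompleteSpace H]

/-- The matrix entries of an operator. -/
noncomputable def ent (T : lp (fun _ : X => H) 2 →L[ℂ] lp (fun _ : X => H) 2) (x y : X) (ξ : H) :
    H :=
  T (lp.single 2 y ξ) x

/-- The algebraic Roe algebra: compact entries and finite propagation. -/
noncomputable def Roe (X H : Type) [MetricSpace X] [NormedAddCommGroup H] [InnerProductSpace ℂ H]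
    [CompleteSpace H] :
    NonUnitalStarSubalgebra ℂ (lp (fun _ : X => H) 2 →L[ℂ] lp (fun _ : X => H) 2) :=
  NonUnitalStarAlgebra.adjoin ℂ {T | (∀ x y, IsCompactOperator (ent T x y)) ∧
    ∃ R : ℝ, ∀ x y, R < dist x y → ent T x y = 0}

/-- `a x` is the square root of the barycentric coordinate of `x`, and `P = V (1 + F') V* / 2`
with `V ξ = (π (a x) ξ)ₓ` and `F' = ∑ π (a z) F π (a z)`. -/
structure IsIndexOp {r : ℝ} (y : Fred (Rips X r) H) (a : X → C₀(Rips X r, ℂ))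
    (P : lp (fun _ : X => H) 2 →L[ℂ] lp (fun _ : X => H) 2) : Prop where
  bary : ∀ x p, a x p = ((Real.sqrt (p.t x) : ℝ) : ℂ)
  entry : ∀ x x' ξ, ent P x x' ξ = (2⁻¹ : ℂ) • (y.π (a x * a x') ξ +
    ∑ᶠ z, y.π (a x * a z) (y.F (y.π (a z * a x') ξ)))

/-- In every nondegenerate representation of the algebraic Roe algebra, the index unitary
`exp (2 π i P)` is joined to `1` by unitaries in `1 +` (the closure of the image). -/
def IndexZero {r : ℝ} (y : Fred (Rips X r) H) : Prop :=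
  ∃ (a : X → C₀(Rips X r, ℂ)) (P : lp (fun _ : X => H) 2 →L[ℂ] lp (fun _ : X => H) 2),
    IsIndexOp y a P ∧ ∀ (K : Type) [NormedAddCommGroup K] [InnerProductSpace ℂ K]
      [CompleteSpace K] (ρ : Roe X H →⋆ₙₐ[ℂ] (K →L[ℂ] K)),
      (∀ ξ : K, (∀ T, ρ T ξ = 0) → ξ = 0) →
      ∃ G : K →L[ℂ] K, IsSelfAdjoint G ∧ (∀ T : Roe X H, ∃ S : Roe X H, S.1 = P * T.1 ∧
        ρ S = G * ρ T) ∧
        JoinedIn {u : K →L[ℂ] K | u ∈ unitary (K →L[ℂ] K) ∧ u - 1 ∈ closure (Set.range ρ)}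
          (NormedSpace.exp (((2 * Real.pi : ℝ) * Complex.I : ℂ) • G)) 1

end Roe

end Vale.Agent.P212
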