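import Mathlib

namespace Vale.Agent.P212

open scoped ZeroAtInfty Classical

/-- Distinct points are at distance at least a fixed positive number. -/
def UnifDiscrete (X : Type) [MetricSpace X] : Prop :=
  ∃ δ : ℝ, 0 < δ ∧ ∀ x y : X, x ≠ y → δ ≤ dist x y

/-- Balls of a given radius have uniformly bounded cardinality. -/
def BddGeom (X : Type) [MetricSpace X] : Prop :=
  ∀ R : ℝ, ∃ N : ℕ, ∀ x : X, (Metric.closedBall x R).encard ≤ N

/-- The points of the Rips complex, given by their barycentric coordinates. -/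
structure Rips (X : Type) [MetricSpace X] (r : ℝ) where
  t : X →₀ ℝ
  nonneg : ∀ x, 0 ≤ t x
  sum_one : (t.sum fun _ a => a) = 1
  diam : ∀ x ∈ t.support, ∀ y ∈ t.support, dist x y ≤ r

/-- The weak topology: the finest one for which the inclusions of the closed simplices, with
their Euclidean topology, are continuous. -/
instance (X : Type) [MetricSpace X] (r : ℝ) : TopologicalSpace (Rips X r) :=
  ⨆ s : {s : Finset X // ∀ x ∈ s, ∀ y ∈ s, dist x y ≤ r},
    TopologicalSpace.coinduced (fun p : {p : Rips X r // p.t.support ⊆ s.1} => p.1)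
      (TopologicalSpace.induced (fun p (x : X) => p.1.t x) inferInstance)

/-- The inclusion of Rips complexes. -/
def Rips.incl {X : Type} [MetricSpace X] {r r' : ℝ} (h : r ≤ r') (p : Rips X r) : Rips X r' :=
  ⟨p.t, p.nonneg, p.sum_one, fun x hx y hy => (p.diam x hx y hy).trans h⟩

section KHomology

variable (Z H : Type) [TopologicalSpace Z] [NormedAddCommGroup H] [InnerProductSpace ℂ H]
  [CompleteSpace H]

/-- Odd Fredholm modules over the functions vanishing at infinity. -/
structure Fred where
  π : C₀(Z, ℂ) →⋆ₙₐ[ℂ] (H →L[ℂ] H)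
  F : H →L[ℂ] H
  comm : ∀ f, IsCompactOperator (F * π f - π f * F : H →L[ℂ] H)
  sa : ∀ f, IsCompactOperator ((F - star F) * π f : H →L[ℂ] H)
  sq : ∀ f, IsCompactOperator ((F * F - 1) * π f : H →L[ℂ] H)

/-- Unitary equivalence, operator homotopy, direct sums and degenerate modules. -/
inductive Rel : FreeAbelianGroup (Fred Z H) → Prop
  | unitary (x y : Fred Z H) (u : H →L[ℂ] H) : star u * u = 1 → u * star u = 1 →
      (∀ f, y.π f = u * x.π f * star u) → y.F = u * x.F * star u →
      Rel (FreeAbelianGroup.of x - FreeAbelianGroup.of y)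
  | homotopy (γ : unitInterval → Fred Z H) : (∀ t, (γ t).π = (γ 0).π) →
      Continuous (fun t => (γ t).F) → Rel (FreeAbelianGroup.of (γ 0) - FreeAbelianGroup.of (γ 1))
  | sum (x y z : Fred Z H) (v w : H →L[ℂ] H) : star v * v = 1 → star w * w = 1 →
      v * star v + w * star w = 1 →
      (∀ f, z.π f = v * x.π f * star v + w * y.π f * star w) →
      z.F = v * x.F * star v + w * y.F * star w →
      Rel (FreeAbelianGroup.of z - FreeAbelianGroup.of x - FreeAbelianGroup.of y)
  | degenerate (x : Fred Z H) : (∀ f, x.F * x.π f - x.π f * x.F = 0) →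
      (∀ f, (x.F - star x.F) * x.π f = 0) → (∀ f, (x.F * x.F - 1) * x.π f = 0) →
      Rel (FreeAbelianGroup.of x)

/-- Odd analytic K-homology. -/
abbrev KHom : Type := FreeAbelianGroup (Fred Z H) ⧸ AddSubgroup.closure {a | Rel Z H a}

variable {Z H}

/-- The class of a Fredholm module. -/
def Fred.cls (x : Fred Z H) : KHom Z H := QuotientAddGroup.mk (FreeAbelianGroup.of x)

end KHomology

section Limit

variable {X H : Type} [MetricSpace X] [NormedAddCommGroup H] [InnerProductSpace ℂ H]
  [CompleteSpace H]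

/-- `y'` is the image of `y` under the inclusion of Rips complexes. -/
structure IsPush {r r' : ℝ} (h : r ≤ r') (y : Fred (Rips X r) H) (y' : Fred (Rips X r') H) :
    Prop where
  op : y'.F = y.F
  rep : ∀ f' : C₀(Rips X r', ℂ), ∃ f : C₀(Rips X r, ℂ), (∀ p, f p = f' (Rips.incl h p)) ∧
    y'.π f' = y.π f

/-- No positive multiple of the class of `y` dies in the direct limit. -/
def NonTorsion {r : ℝ} (y : Fred (Rips X r) H) : Prop :=
  ∀ (r' : ℝ) (h : r ≤ r'), ∃ y' : Fred (Rips X r') H, IsPush h y y' ∧
    ∀ k : ℕ, 0 < k → k • y'.cls ≠ 0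

end Limit

end Vale.Agent.P212
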