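import Vale.Agent.P212.Defs0

namespace Vale.Agent.P212

open scoped ZeroAtInfty

variable {X H E K : Type} [MetricSpace X] [NormedAddCommGroup H] [InnerProductSpace ℂ H]
  [CompleteSpace H] [NormedAddCommGroup E] [InnerProductSpace ℂ E] [CompleteSpace E]
  [NormedAddCommGroup K] [InnerProductSpace ℂ K] [CompleteSpace K]

/-- The matrix entries of an operator on the Hilbert sum of copies of `H` indexed by `X`. -/
noncomputable def entry (J : X → H →ₗᵢ[ℂ] E) (T : E →L[ℂ] E) (x y : X) : H →L[ℂ] H :=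
  ContinuousLinearMap.adjoint (J x).toContinuousLinearMap ∘L T ∘L (J y).toContinuousLinearMap

/-- The algebraic Roe algebra: compact entries and finite propagation. -/
def AlgRoe (J : X → H →ₗᵢ[ℂ] E) : Set (E →L[ℂ] E) :=
  {T | (∀ x y, IsCompactOperator (entry J T x y)) ∧
    ∃ R : ℝ, ∀ x y, R < dist x y → entry J T x y = 0}

/-- The restriction of `ρ` to `A` is a nondegenerate star representation. -/
structure IsRep (A : Set (E →L[ℂ] E)) (ρ : (E →L[ℂ] E) → (K →L[ℂ] K)) : Prop where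
  add : ∀ S ∈ A, ∀ T ∈ A, ρ (S + T) = ρ S + ρ T
  smul : ∀ c : ℂ, ∀ T ∈ A, ρ (c • T) = c • ρ T
  mul : ∀ S ∈ A, ∀ T ∈ A, ρ (S * T) = ρ S * ρ T
  star : ∀ T ∈ A, ρ (star T) = star (ρ T)
  nondeg : ∀ ξ : K, (∀ T ∈ A, ρ T ξ = 0) → ξ = 0

/-- `P` is a multiplier, represented by `G`, and `exp (2 π i G)` is joined to `1` by unitaries in
`1 +` (the closure of the image of `A`). -/
def ExpTrivial (A : Set (E →L[ℂ] E)) (ρ : (E →L[ℂ] E) → (K →L[ℂ] K)) (P : E →L[ℂ] E) : Prop :=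
  ∃ G : K →L[ℂ] K, IsSelfAdjoint G ∧ (∀ T ∈ A, P * T ∈ A ∧ ρ (P * T) = G * ρ T) ∧
    JoinedIn {u : K →L[ℂ] K | u ∈ unitary (K →L[ℂ] K) ∧ u - 1 ∈ closure (ρ '' A)}
      (NormedSpace.exp (((2 * Real.pi : ℝ) * Complex.I : ℂ) • G)) 1

/-- `a x` is the square root of the barycentric coordinate of `x`, and `P = V (1 + F') V* / 2`
with `V ξ = (π (a x) ξ)ₓ` and `F' = ∑ π (a z) F π (a z)`. -/
structure IndexOp (J : X → H →ₗᵢ[ℂ] E) {r : ℝ} (y : Fred (Rips X r) H)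
    (a : X → C₀(Rips X r, ℂ)) (P : E →L[ℂ] E) : Prop where
  bary : ∀ x p, a x p = ((Real.sqrt (p.t x) : ℝ) : ℂ)
  ent : ∀ x x', entry J P x x' = (2⁻¹ : ℂ) • (y.π (a x * a x') +
    ∑ᶠ z, y.π (a x * a z) * y.F * y.π (a z * a x'))

/-- The index unitary is trivial in every nondegenerate representation. -/
def IndexVanishes (J : X → H →ₗᵢ[ℂ] E) {r : ℝ} (y : Fred (Rips X r) H) : Prop :=
  ∃ (a : X → C₀(Rips X r, ℂ)) (P : E →L[ℂ] E), IndexOp J y a P ∧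
    ∀ (K : Type) [NormedAddCommGroup K] [InnerProductSpace ℂ K] [CompleteSpace K]
      (ρ : (E →L[ℂ] E) → (K →L[ℂ] K)), IsRep (AlgRoe J) ρ → ExpTrivial (AlgRoe J) ρ P

end Vale.Agent.P212
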